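import Vale.Agent.P156.F674.ImUI
import Vale.Agent.P156.B.Samp

/-!
# P156, block FE12, part 2: conditions T1, T1', T4, T5 of `GoodSeq` at every energy
-/

open MeasureTheory Filter Topology Matrix Finset

namespace Vale.Agent.P156.F674

open H801 FE

noncomputable section

variable {n d : ℕ}

/-! ### one star -/

/-- The centre of one uniform star is uniform. -/
theorem avg_WW_one (Φ : SimpleGraph (Fin n) → Fin n → ℝ) :
    avg (WW n d 1) (fun ω => Φ ω.1 (ω.2.1 0)) =
      avg (regularGraphs n d) (fun G => (∑ v, Φ G v) / n) := by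
  rw [B.avg_WW_eq]
  have h : ∀ G ∈ regularGraphs n d,
      avg (B.mstars d 1 G) (fun s => Φ (B.mk G s).1 ((B.mk G s).2.1 0)) =
        (∑ v, Φ G v) / n := by
    intro G hG
    have hG' := B.mem_regularGraphs.1 hG
    rw [← B.avg_stars_pos hG' none (Φ G)]
    unfold avg
    congr 1
    · refine Finset.sum_nbij' (fun u => u 0) (fun t _ => t) ?_ ?_ ?_ ?_ ?_
      · intro u hu
        exact B.mem_mstars.1 hu 0
      · intro t ht
        exact B.mem_mstars.2 fun _ => ht
      · intro u _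
        funext i
        rw [Subsingleton.elim i 0]
      · intro t _
        rfl
      · intro u _
        rfl
    · rw [B.card_mstars hG', B.card_stars hG', pow_one]
  unfold avg at h ⊢
  rw [Finset.sum_congr rfl h]

/-- The trace of the imaginary part of the resolvent in microscopic units. -/
theorem trace_eq (G : SimpleGraph (Fin n)) (hn : (0 : ℝ) < n) {L : ℝ} (hL : 0 < L) (E : ℝ) :
    (∑ v, Xim G v (L / n) E) / n = ∑ i, L / (xx E G i ^ 2 + L ^ 2) := by
  have hη : 0 < L / (n : ℝ) := by positivity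
  have h1 : ∑ v, Xim G v (L / n) E = ∑ i, pk (L / n) (eig G i - E) := by
    simp only [Xim_eq G _ hη]
    rw [Finset.sum_comm]
    refine Finset.sum_congr rfl fun i _ => ?_
    rw [← Finset.sum_mul]
    have h2 := ev_orth (adj_isHermitian G) i i
    simp only [if_true, ← sq] at h2
    rw [h2, one_mul]
  rw [h1, Finset.sum_div]
  refine Finset.sum_congr rfl fun i _ => ?_
  have hx : xx E G i = n * (eig G i - E) := rfl
  rw [hx]
  unfold pk
  have h3 : 0 < (eig G i - E) ^ 2 + (L / n) ^ 2 := by positivity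
  have h4 : 0 < (n * (eig G i - E)) ^ 2 + L ^ 2 := by positivity
  field_simp

/-- the mean number of eigenvalues -/
theorem avg_trace_le {C E L : ℝ} (hn : 0 < n) (hL : 0 < L)
    (h : avg (WW n d 1) (fun ω => (resD (adj ω.1) ∅ (zz E (L / n)) (ω.2.1 0) (ω.2.1 0)).im) ≤ C) :
    avg (regularGraphs n d) (fun G => ∑ i, L / (xx E G i ^ 2 + L ^ 2)) ≤ C := by
  have hn' : (0 : ℝ) < n := by exact_mod_cast hn
  have h1 := avg_WW_one (n := n) (d := d) (fun G v => Xim G v (L / n) E)
  simp only [trace_eq _ hn' hL] at h1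
  rw [← h1]
  exact h

theorem T1_of {a b : ℝ} (h : SpecImUI d a b) : ∀ ε > 0, ∃ B : ℝ, ∀ᶠ n : ℕ in admissible d,
    ∀ E ∈ Set.Icc a b, avg (regularGraphs n d)
      (fun G => ∑ i, if B < |xx E G i| then (xx E G i ^ 2)⁻¹ else 0) ≤ ε := by
  intro ε hε
  obtain ⟨⟨C, hC⟩, -⟩ := h
  set L : ℝ := max 1 (2 * |C| / ε) with hLdef
  have hL1 : 1 ≤ L := le_max_left _ _
  have hL2 : 2 * |C| / ε ≤ L := le_max_right _ _
  refine ⟨L, ?_⟩
  filter_upwards [H520.adm_mem (d := d), H520.adm_ge (d := d) ⌈L⌉₊] with n hn hnL E hE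
  have hn0 : 0 < n := by have := hn.1; omega
  have hn' : (0 : ℝ) < n := by exact_mod_cast hn0
  have hnL' : L ≤ n := (Nat.le_ceil _).trans (by exact_mod_cast hnL)
  have h1 := avg_trace_le (n := n) (d := d) (E := E) hn0 (by linarith : 0 < L)
    (hC n hn E hE (L / n) (by positivity) (by rw [div_le_one hn']; exact hnL')
      (by rw [mul_div_cancel₀ _ hn'.ne']; exact hL1))
  calc avg (regularGraphs n d) (fun G => ∑ i, if L < |xx E G i| then (xx E G i ^ 2)⁻¹ else 0)
      ≤ avg (regularGraphs n d) (fun G => 2 / L * ∑ i, L / (xx E G i ^ 2 + L ^ 2)) := by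
        apply avg_mono
        intro G _
        rw [Finset.mul_sum]
        refine Finset.sum_le_sum fun i _ => ?_
        split_ifs with h2
        · have h3 : L ^ 2 ≤ xx E G i ^ 2 := by
            rw [← sq_abs (xx E G i)]
            exact pow_le_pow_left₀ (by linarith) h2.le 2
          have h4 : 0 < xx E G i ^ 2 := lt_of_lt_of_le (by positivity) h3
          rw [div_mul_div_comm, inv_eq_one_div, div_le_div_iff₀ h4 (by positivity)]
          nlinarith
        · positivity
    _ = 2 / L * avg (regularGraphs n d) (fun G => ∑ i, L / (xx E G i ^ 2 + L ^ 2)) :=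
        H520.avg_const_mul _ _ _
    _ ≤ 2 / L * |C| := mul_le_mul_of_nonneg_left (h1.trans (le_abs_self C)) (by positivity)
    _ ≤ ε := by
        rw [div_mul_eq_mul_div, div_le_iff₀ (by linarith)]
        rw [div_le_iff₀ hε] at hL2
        linarith

theorem T1'_of {a b : ℝ} (h : SpecImUI d a b) : ∀ B : ℝ, ∃ C : ℝ, ∀ᶠ n : ℕ in admissible d,
    ∀ E ∈ Set.Icc a b, avg (regularGraphs n d)
      (fun G => ∑ i, if |xx E G i| ≤ B then 1 else 0) ≤ C := by
  intro B
  obtain ⟨⟨C, hC⟩, -⟩ := h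
  set L : ℝ := max 1 B with hLdef
  have hL1 : 1 ≤ L := le_max_left _ _
  have hL2 : B ≤ L := le_max_right _ _
  refine ⟨2 * L * C, ?_⟩
  filter_upwards [H520.adm_mem (d := d), H520.adm_ge (d := d) ⌈L⌉₊] with n hn hnL E hE
  have hn0 : 0 < n := by have := hn.1; omega
  have hn' : (0 : ℝ) < n := by exact_mod_cast hn0
  have hnL' : L ≤ n := (Nat.le_ceil _).trans (by exact_mod_cast hnL)
  have h1 := avg_trace_le (n := n) (d := d) (E := E) hn0 (by linarith : 0 < L)
    (hC n hn E hE (L / n) (by positivity) (by rw [div_le_one hn']; exact hnL')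
      (by rw [mul_div_cancel₀ _ hn'.ne']; exact hL1))
  calc avg (regularGraphs n d) (fun G => ∑ i, if |xx E G i| ≤ B then (1 : ℝ) else 0)
      ≤ avg (regularGraphs n d) (fun G => 2 * L * ∑ i, L / (xx E G i ^ 2 + L ^ 2)) := by
        apply avg_mono
        intro G _
        rw [Finset.mul_sum]
        refine Finset.sum_le_sum fun i _ => ?_
        split_ifs with h2
        · have h3 : xx E G i ^ 2 ≤ L ^ 2 := by
            rw [← sq_abs (xx E G i)]
            exact pow_le_pow_left₀ (abs_nonneg _) (h2.trans hL2) 2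
          rw [← mul_div_assoc, le_div_iff₀ (by positivity)]
          nlinarith
        · positivity
    _ = 2 * L * avg (regularGraphs n d) (fun G => ∑ i, L / (xx E G i ^ 2 + L ^ 2)) :=
        H520.avg_const_mul _ _ _
    _ ≤ 2 * L * C := mul_le_mul_of_nonneg_left h1 (by positivity)

theorem T5_of {a b : ℝ} (h : SpecImUI d a b) : ∀ B : ℝ, ∀ ε > 0, ∃ M : ℝ,
    ∀ᶠ n : ℕ in admissible d, ∀ E ∈ Set.Icc a b,
    avg (WW n d 1) (fun ω => ∑ i, if |xx E ω.1 i| ≤ B ∧ M < phi ω.1 i (ω.2.1 0) ^ 2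
      then phi ω.1 i (ω.2.1 0) ^ 2 else 0) ≤ ε := by
  intro B ε hε
  set L : ℝ := max 1 B with hLdef
  have hL1 : 1 ≤ L := le_max_left _ _
  have hL2 : B ≤ L := le_max_right _ _
  have hL0 : 0 < L := by linarith
  obtain ⟨M, hM⟩ := h.2 L hL1 (ε / (2 * L)) (by positivity)
  refine ⟨2 * L * M, ?_⟩
  filter_upwards [H520.adm_mem (d := d), hM] with n hn hM E hE
  have hn0 : 0 < n := by have := hn.1; omega
  have hn' : (0 : ℝ) < n := by exact_mod_cast hn0
  have h1 := hM E hE
  have hη : 0 < L / (n : ℝ) := by positivity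
  calc avg (WW n d 1) (fun ω => ∑ i, if |xx E ω.1 i| ≤ B ∧ 2 * L * M < phi ω.1 i (ω.2.1 0) ^ 2
        then phi ω.1 i (ω.2.1 0) ^ 2 else 0)
      ≤ avg (WW n d 1) (fun ω => 2 * L *
          (if M ≤ (resD (adj ω.1) ∅ (zz E (L / n)) (ω.2.1 0) (ω.2.1 0)).im
            then (resD (adj ω.1) ∅ (zz E (L / n)) (ω.2.1 0) (ω.2.1 0)).im else 0)) := by
        apply avg_mono
        intro ω _
        set v := ω.2.1 0 with hv
        change _ ≤ 2 * L * (if M ≤ Xim ω.1 v (L / n) E then Xim ω.1 v (L / n) E else 0)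
        have hX0 := Xim_nonneg ω.1 v hη E
        have hterm0 : ∀ i, 0 ≤ 2 * L * ((ev (adj_isHermitian ω.1) i v) ^ 2 *
            pk (L / n) (eig ω.1 i - E)) := fun i =>
          mul_nonneg (by positivity) (mul_nonneg (sq_nonneg _) (pk_nonneg hη.le _))
        by_cases hex : ∃ i, |xx E ω.1 i| ≤ B ∧ 2 * L * M < phi ω.1 i v ^ 2
        · obtain ⟨i, hi1, hi2⟩ := hex
          have h2 := one_term ω.1 i v hL0 hn' (hi1.trans hL2)
          have h3 : 2 * L * ((ev (adj_isHermitian ω.1) i v) ^ 2 * pk (L / n) (eig ω.1 i - E)) ≤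
              2 * L * Xim ω.1 v (L / n) E := by
            rw [Xim_eq ω.1 v hη, Finset.mul_sum]
            exact Finset.single_le_sum (f := fun i => 2 * L * ((ev (adj_isHermitian ω.1) i v) ^ 2 *
              pk (L / n) (eig ω.1 i - E))) (fun i _ => hterm0 i) (Finset.mem_univ i)
          have h4 : M ≤ Xim ω.1 v (L / n) E := by
            have h5 : 2 * L * M ≤ 2 * L * Xim ω.1 v (L / n) E := by linarith
            exact le_of_mul_le_mul_left h5 (by positivity)
          rw [if_pos h4, Xim_eq ω.1 v hη, Finset.mul_sum]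
          refine Finset.sum_le_sum fun i _ => ?_
          split_ifs with h6
          · exact one_term ω.1 i v hL0 hn' (h6.1.trans hL2)
          · exact hterm0 i
        · rw [Finset.sum_eq_zero]
          · refine mul_nonneg (by positivity) ?_
            split_ifs
            · exact hX0
            · exact le_rfl
          · intro i _
            rw [if_neg fun h' => hex ⟨i, h'⟩]
    _ = 2 * L * avg (WW n d 1) (fun ω =>
          (if M ≤ (resD (adj ω.1) ∅ (zz E (L / n)) (ω.2.1 0) (ω.2.1 0)).im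
            then (resD (adj ω.1) ∅ (zz E (L / n)) (ω.2.1 0) (ω.2.1 0)).im else 0)) :=
        H520.avg_const_mul _ _ _
    _ ≤ 2 * L * (ε / (2 * L)) := mul_le_mul_of_nonneg_left h1 (by positivity)
    _ = ε := by field_simp

/-! ### the local law on `K` stars -/

/-- elementary continuity of the tree resolvent on a star -/
theorem Kz_sub_le {K : ℕ} {z z' m m' : ℂ} {c r s : ℝ} (hc : 0 < c) (hz : c ≤ ‖z + d * m‖)
    (hz' : c ≤ ‖z' + d * m'‖) (hm : ‖m‖ ≤ 1) (hm' : ‖m'‖ ≤ 1) (h1 : ‖z - z'‖ ≤ r)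
    (h2 : ‖m - m'‖ ≤ s) (x y : Fin K × Option (Fin d)) :
    ‖H520.Kz d z m K x y - H520.Kz d z' m' K x y‖ ≤ c⁻¹ * (2 * s) + (r + d * s) / c ^ 2 := by
  have hr : 0 ≤ r := (norm_nonneg _).trans h1
  have hs : 0 ≤ s := (norm_nonneg _).trans h2
  have hz0 : z + d * m ≠ 0 := norm_ne_zero_iff.1 (hc.trans_le hz).ne'
  have hz0' : z' + d * m' ≠ 0 := norm_ne_zero_iff.1 (hc.trans_le hz').ne'
  unfold H520.Kz
  split_ifs with hxy
  · set u := -1 / (z + d * m) with hu
    set u' := -1 / (z' + d * m') with hu'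
    have hun : ‖u‖ ≤ c⁻¹ := by
      rw [hu, norm_div, norm_neg, norm_one, one_div]
      exact inv_anti₀ hc hz
    have huu : ‖u - u'‖ ≤ (r + d * s) / c ^ 2 := by
      have e : u - u' = ((z - z') + d * (m - m')) / ((z + d * m) * (z' + d * m')) := by
        rw [hu, hu']
        field_simp
        ring
      rw [e, norm_div, norm_mul]
      have e1 : ‖(z - z') + d * (m - m')‖ ≤ r + d * s := by
        refine (norm_add_le _ _).trans (add_le_add h1 ?_)
        rw [norm_mul]
        simp only [Complex.norm_natCast]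
        exact mul_le_mul_of_nonneg_left h2 (Nat.cast_nonneg _)
      have e2 : c ^ 2 ≤ ‖z + d * m‖ * ‖z' + d * m'‖ := by
        rw [sq]
        exact mul_le_mul hz hz' hc.le (norm_nonneg _)
      exact div_le_div₀ (by positivity) e1 (by positivity) e2
    have hpow : ‖(-m) ^ starDist x.2 y.2 - (-m') ^ starDist x.2 y.2‖ ≤ 2 * s := by
      unfold starDist
      split_ifs
      · simpa using hs
      · rw [pow_one, pow_one]
        have e : -m - -m' = -(m - m') := by ring
        rw [e, norm_neg]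
        linarith
      · have e : (-m) ^ 2 - (-m') ^ 2 = (m + m') * (m - m') := by ring
        rw [e, norm_mul]
        have e1 : ‖m + m'‖ ≤ 2 := (norm_add_le _ _).trans (by linarith)
        exact mul_le_mul e1 h2 (norm_nonneg _) (by norm_num)
    have hp' : ‖(-m') ^ starDist x.2 y.2‖ ≤ 1 := by
      rw [norm_pow, norm_neg]
      exact pow_le_one₀ (norm_nonneg _) hm'
    have e : u * (-m) ^ starDist x.2 y.2 - u' * (-m') ^ starDist x.2 y.2 =
        u * ((-m) ^ starDist x.2 y.2 - (-m') ^ starDist x.2 y.2) +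
          (u - u') * (-m') ^ starDist x.2 y.2 := by ring
    rw [e]
    refine (norm_add_le _ _).trans (add_le_add ?_ ?_)
    · rw [norm_mul]
      exact mul_le_mul hun hpow (norm_nonneg _) (by positivity)
    · rw [norm_mul]
      calc ‖u - u'‖ * ‖(-m') ^ starDist x.2 y.2‖ ≤ (r + d * s) / c ^ 2 * 1 :=
            mul_le_mul huu hp' (norm_nonneg _) (by positivity)
        _ = _ := mul_one _
  · rw [sub_zero, norm_zero]
    positivity

/-- bounds for `mE` by passing to the limit -/
theorem mE_bounds {c E : ℝ} (hc : 0 < c)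
    (h1 : ∀ η : ℝ, 0 < η → η ≤ 1 → c ≤ (mm d (zz E η)).im ∧ ‖mm d (zz E η)‖ ≤ 1)
    (h2 : ∀ η : ℝ, 0 < η → η ≤ 1 → ‖mm d (zz E η) - mE d E‖ ≤ c⁻¹ * η) :
    c ≤ (mE d E).im ∧ ‖mE d E‖ ≤ 1 := by
  have key : ∀ e : ℝ, 0 < e → ∃ m : ℂ, c ≤ m.im ∧ ‖m‖ ≤ 1 ∧ ‖m - mE d E‖ ≤ e := by
    intro e he
    have hη : 0 < min 1 (c * e) := lt_min one_pos (by positivity)
    have h3 := h1 _ hη (min_le_left _ _)
    refine ⟨_, h3.1, h3.2, (h2 _ hη (min_le_left _ _)).trans ?_⟩
    calc c⁻¹ * min 1 (c * e) ≤ c⁻¹ * (c * e) :=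
          mul_le_mul_of_nonneg_left (min_le_right _ _) (by positivity)
      _ = e := by field_simp
  constructor
  · apply le_of_forall_pos_le_add
    intro e he
    obtain ⟨m, a1, -, a3⟩ := key e he
    have h4 := (Complex.abs_im_le_norm (m - mE d E)).trans a3
    rw [Complex.sub_im] at h4
    have := (abs_le.1 h4).2
    linarith
  · apply le_of_forall_pos_le_add
    intro e he
    obtain ⟨m, -, a2, a3⟩ := key e he
    have h4 : ‖mE d E‖ ≤ ‖m‖ + ‖m - mE d E‖ := by
      have e1 : mE d E = m - (m - mE d E) := by ring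
      rw [e1]
      refine (norm_sub_le _ _).trans (le_of_eq ?_)
      congr 2
      ring
    linarith

theorem Kz_KE {a b : ℝ} (hd : 3 ≤ d) (h : SpecM d a b) : ∃ C : ℝ, 0 < C ∧ ∀ E ∈ Set.Icc a b,
    ∀ η : ℝ, 0 < η → η ≤ 1 → ∀ (K : ℕ) (x y : Fin K × Option (Fin d)),
      ‖H520.Kz d (zz E η) (mm d (zz E η)) K x y - KE d E K x y‖ ≤ C * η := by
  obtain ⟨c, hc, hc1, h1, h2, h3⟩ := h
  refine ⟨c⁻¹ * (2 * c⁻¹) + (1 + d * c⁻¹) / c ^ 2, by positivity, ?_⟩
  intro E hE η hη hη1 K x y
  rw [H520.KE_eq_Kz]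
  have hb := mE_bounds (d := d) hc (fun η a1 a2 => ⟨(h1 E hE η a1 a2).1, (h1 E hE η a1 a2).2.1⟩)
    (fun η a1 a2 => h3 E hE η a1 a2)
  have hd1 : (1 : ℝ) ≤ d := by exact_mod_cast (by omega : 1 ≤ d)
  have him : ∀ (z m : ℂ), 0 ≤ z.im → c ≤ m.im → c ≤ ‖z + d * m‖ := by
    intro z m hz hm
    refine le_trans ?_ (Complex.abs_im_le_norm _)
    refine le_trans ?_ (le_abs_self _)
    have e : (z + d * m).im = z.im + d * m.im := by simp
    rw [e]
    nlinarith
  have hzz : (zz E η).im = η := by simp [zz]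
  have e1 : ‖zz E η - (E : ℂ)‖ ≤ η := by
    have : zz E η - (E : ℂ) = (η : ℂ) * Complex.I := by
      unfold zz
      ring
    rw [this]
    simp [abs_of_pos hη]
  refine (Kz_sub_le hc (him _ _ (by rw [hzz]; exact hη.le) (h1 E hE η hη hη1).1)
    (him _ _ (by simp) hb.1) (h1 E hE η hη hη1).2.1 hb.2 e1 (h3 E hE η hη hη1) x y).trans
    (le_of_eq ?_)
  ring

/-- one entry on two stars -/
theorem entry2 {z m : ℂ} {ε Q : ℝ} (hm : m = mm d z) (hε : 0 < ε) (hε1 : ε ≤ 1)
    (h : avg (WW n d 2) (fun ω => dev ω z) ≤ Q) (x y : Fin 2 × Option (Fin d)) :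
    prob (WW n d 2) (fun ω => ε < ‖starMat ω z x y - H520.Kz d z m 2 x y‖) ≤ Q / ε ^ 2 := by
  rw [le_div_iff₀ (by positivity)]
  refine le_trans ?_ h
  unfold prob
  rw [mul_comm, ← H520.avg_const_mul]
  apply avg_mono
  intro ω _
  have h0 : ∀ x y, 0 ≤ ‖starMat ω z x y - H520.Kz d z (mm d z) 2 x y‖ ^ 2 :=
    fun _ _ => by positivity
  have hd0 : 0 ≤ dev ω z := by
    unfold dev
    exact le_min zero_le_one (Finset.sum_nonneg fun x _ => Finset.sum_nonneg fun y _ => h0 x y)
  split_ifs with h1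
  · rw [mul_one]
    unfold dev
    apply le_min
    · exact pow_le_one₀ hε.le hε1
    · refine le_trans ?_ (Finset.single_le_sum (f := fun x => ∑ y,
        ‖starMat ω z x y - H520.Kz d z (mm d z) 2 x y‖ ^ 2)
        (fun x _ => Finset.sum_nonneg fun y _ => h0 x y) (Finset.mem_univ x))
      refine le_trans ?_ (Finset.single_le_sum (f := fun y =>
        ‖starMat ω z x y - H520.Kz d z (mm d z) 2 x y‖ ^ 2) (fun y _ => h0 x y)
        (Finset.mem_univ y))
      rw [← hm]
      exact pow_le_pow_left₀ hε.le h1.le 2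
  · rw [mul_zero]
    exact hd0

/-- one entry on `K` stars -/
theorem entryK {K : ℕ} (hn : 0 < n) {z m : ℂ} {ε Q : ℝ} (hm : m = mm d z) (hε : 0 < ε)
    (hε1 : ε ≤ 1) (h : avg (WW n d 2) (fun ω => dev ω z) ≤ Q) (x y : Fin K × Option (Fin d)) :
    prob (WW n d K) (fun ω => ε < ‖starMat ω z x y - H520.Kz d z m K x y‖) ≤ Q / ε ^ 2 := by
  classical
  obtain ⟨j, x⟩ := x
  obtain ⟨k, y⟩ := y
  by_cases hjk : j = k
  · subst hjk
    have h1 := B.avg_WW_marg (n := n) (d := d) hn (κ := fun _ : Fin 1 => j)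
      (fun a b _ => Subsingleton.elim a b)
      (fun ω => if ε < ‖starMat ω z (0, x) (0, y) - H520.Kz d z m 1 (0, x) (0, y)‖
        then (1 : ℝ) else 0)
    have h2 := B.avg_WW_marg (n := n) (d := d) (K := 2) hn (κ := fun _ : Fin 1 => 0)
      (fun a b _ => Subsingleton.elim a b)
      (fun ω => if ε < ‖starMat ω z (0, x) (0, y) - H520.Kz d z m 1 (0, x) (0, y)‖
        then (1 : ℝ) else 0)
    have h3 := entry2 (n := n) hm hε hε1 h (0, x) (0, y)
    have e1 : prob (WW n d K) (fun ω => ε < ‖starMat ω z (j, x) (j, y) -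
        H520.Kz d z m K (j, x) (j, y)‖) = avg (WW n d 1) (fun ω =>
        if ε < ‖starMat ω z (0, x) (0, y) - H520.Kz d z m 1 (0, x) (0, y)‖
        then (1 : ℝ) else 0) := by
      rw [← h1]
      unfold prob
      congr 1
      funext ω
      have e2 : H520.Kz d z m K (j, x) (j, y) = H520.Kz d z m 1 (0, x) (0, y) := by
        unfold H520.Kz
        simp
      exact if_congr (by rw [e2]; exact Iff.rfl) rfl rfl
    have e1' : prob (WW n d 2) (fun ω => ε < ‖starMat ω z (0, x) (0, y) -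
        H520.Kz d z m 2 (0, x) (0, y)‖) = avg (WW n d 1) (fun ω =>
        if ε < ‖starMat ω z (0, x) (0, y) - H520.Kz d z m 1 (0, x) (0, y)‖
        then (1 : ℝ) else 0) := by
      rw [← h2]
      unfold prob
      congr 1
    rw [e1, ← e1']
    exact h3
  · have hinj : Function.Injective (![j, k] : Fin 2 → Fin K) := by
      intro a b hab
      fin_cases a <;> fin_cases b
      · rfl
      · exact absurd hab hjk
      · exact absurd hab.symm hjk
      · rfl
    have h1 := B.avg_WW_marg (n := n) (d := d) hn hinj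
      (fun ω => if ε < ‖starMat ω z (0, x) (1, y) - H520.Kz d z m 2 (0, x) (1, y)‖
        then (1 : ℝ) else 0)
    have h3 := entry2 (n := n) hm hε hε1 h (0, x) (1, y)
    have e1 : prob (WW n d K) (fun ω => ε < ‖starMat ω z (j, x) (k, y) -
        H520.Kz d z m K (j, x) (k, y)‖) = avg (WW n d 2) (fun ω =>
        if ε < ‖starMat ω z (0, x) (1, y) - H520.Kz d z m 2 (0, x) (1, y)‖
        then (1 : ℝ) else 0) := by
      rw [← h1]
      unfold prob
      congr 1
      funext ω
      have e2 : H520.Kz d z m K (j, x) (k, y) = H520.Kz d z m 2 (0, x) (1, y) := by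
        unfold H520.Kz
        simp [hjk]
      exact if_congr (by rw [e2]; exact Iff.rfl) rfl rfl
    rw [e1]
    exact h3

theorem prob_exists_le {α ι : Type*} [Fintype ι] (s : Finset α) (P : ι → α → Prop) {q : ℝ}
    (h : ∀ i, prob s (P i) ≤ q) : prob s (fun ω => ∃ i, P i ω) ≤ Fintype.card ι * q := by
  classical
  calc prob s (fun ω => ∃ i, P i ω) ≤ ∑ i, prob s (P i) := by
        unfold prob
        rw [← H520.avg_sum]
        apply avg_mono
        intro ω _
        split_ifs with h1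
        · obtain ⟨i, hi⟩ := h1
          have h0 : ∀ i ∈ (Finset.univ : Finset ι), (0 : ℝ) ≤ (if P i ω then 1 else 0) := by
            intro i _
            split_ifs <;> norm_num
          refine le_trans ?_ (Finset.single_le_sum h0 (Finset.mem_univ i))
          rw [if_pos hi]
        · refine Finset.sum_nonneg fun i _ => ?_
          split_ifs <;> norm_num
    _ ≤ ∑ _i : ι, q := Finset.sum_le_sum fun i _ => h i
    _ = Fintype.card ι * q := by
        rw [Finset.sum_const, nsmul_eq_mul, Finset.card_univ]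

theorem dev_nonneg {K : ℕ} (ω : SimpleGraph (Fin n) × StarPos n d K) (z : ℂ) : 0 ≤ dev ω z :=
  le_min zero_le_one (Finset.sum_nonneg fun _ _ => Finset.sum_nonneg fun _ _ => by positivity)

theorem rho_nonneg {K : ℕ} (ω : SimpleGraph (Fin n) × StarPos n d K) (z : ℂ) : 0 ≤ FE.rho ω z :=
  le_min zero_le_one (Finset.sum_nonneg fun _ _ => Finset.sum_nonneg fun _ _ => by positivity)

open Classical in
/-- mean deviation of the star matrix on two stars -/
theorem avg_dev_le {a b : ℝ} (hC : SpecComp d a b) (hZ : SpecZW d) (hF : SpecFM d a b) :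
    ∃ A : ℝ, 0 < A ∧ ∀ n : ℕ, Adm n d → ∀ E ∈ Set.Icc a b, ∀ η : ℝ, 0 < η → η ≤ 1 → 1 ≤ n * η →
      avg (WW n d 2) (fun ω => dev ω (zz E η)) ≤ A / (n * η) + A / n := by
  obtain ⟨C, hC1, hC⟩ := hC 2
  obtain ⟨C', hZ⟩ := hZ 2
  obtain ⟨A, hA1, hA⟩ := hF
  refine ⟨max (C * A) |C'|, by positivity, ?_⟩
  intro n hn E hE η hη h1 hN
  have hn0 : (0 : ℝ) < n := by
    have h1' : 0 < n := by have := hn.1; omega
    exact_mod_cast h1'
  calc avg (WW n d 2) (fun ω => dev ω (zz E η))
      ≤ avg (WW n d 2) (fun ω => C * FE.rho ω (zz E η) + if ω ∉ ZZs n d 2 then 1 else 0) := by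
        apply avg_mono
        intro ω _
        have hr := rho_nonneg ω (zz E η)
        by_cases hω : ω ∈ ZZs n d 2
        · rw [if_neg (not_not.2 hω), add_zero]
          exact (hC n ω hω E hE η hη h1).2
        · rw [if_pos hω]
          have h2 : dev ω (zz E η) ≤ 1 := min_le_left _ _
          have h3 : 0 ≤ C * FE.rho ω (zz E η) := mul_nonneg (by linarith) hr
          linarith
    _ = C * avg (WW n d 2) (fun ω => FE.rho ω (zz E η)) +
          prob (WW n d 2) (fun ω => ω ∉ ZZs n d 2) := by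
        rw [H520.avg_add, H520.avg_const_mul]
        congr 1
        unfold prob
        congr 1
        funext ω
        by_cases hω : ω ∈ ZZs n d 2 <;> simp [hω]
    _ ≤ C * (A / (n * η)) + C' / n :=
        add_le_add (mul_le_mul_of_nonneg_left (hA n hn E hE η hη h1 hN) (by linarith))
          (hZ n hn.1 hn.2)
    _ ≤ max (C * A) |C'| / (n * η) + max (C * A) |C'| / n := by
        rw [← mul_div_assoc]
        gcongr
        · exact le_max_left _ _
        · exact (le_abs_self _).trans (le_max_right _ _)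

theorem T4_of {a b : ℝ} (hd : 3 ≤ d) (hM : SpecM d a b) (hC : SpecComp d a b) (hZ : SpecZW d)
    (hF : SpecFM d a b) : ∀ K : ℕ, ∀ ε > 0, ∃ L₀ : ℝ, ∀ L ≥ L₀, ∀ᶠ n : ℕ in admissible d,
    ∀ E ∈ Set.Icc a b, prob (WW n d K) (fun ω => ∃ x y,
      ε < ‖starMat ω ((E : ℂ) + ((L / n : ℝ) : ℂ) * Complex.I) x y - KE d E K x y‖) ≤ ε := by
  intro K ε hε
  obtain ⟨Ck, hCk, hK⟩ := Kz_KE hd hM
  obtain ⟨A, hA0, hA⟩ := avg_dev_le hC hZ hF
  set ε₁ : ℝ := min 1 (ε / 2) with hε₁
  have hε1 : 0 < ε₁ := lt_min one_pos (by positivity)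
  have hε2 : ε₁ ≤ 1 := min_le_left _ _
  have hε3 : ε₁ ≤ ε / 2 := min_le_right _ _
  set N : ℝ := (Fintype.card ((Fin K × Option (Fin d)) × (Fin K × Option (Fin d))) : ℝ) with hN
  have hN0 : 0 ≤ N := Nat.cast_nonneg _
  set Q : ℝ := 2 * (N + 1) * A / (ε₁ ^ 2 * ε) with hQ
  have hQ0 : 0 < Q := by positivity
  refine ⟨max 1 Q, fun L hL => ?_⟩
  have hL1 : 1 ≤ L := (le_max_left _ _).trans hL
  have hL2 : Q ≤ L := (le_max_right _ _).trans hL
  have hL0 : 0 < L := by linarith
  filter_upwards [H520.adm_mem (d := d), H520.adm_ge (d := d) ⌈L⌉₊, H520.adm_ge (d := d) ⌈Q⌉₊,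
    H520.adm_ge (d := d) ⌈2 * Ck * L / ε⌉₊] with n hn hn1 hn2 hn3 E hE
  have hn0 : 0 < n := by have := hn.1; omega
  have hn' : (0 : ℝ) < n := by exact_mod_cast hn0
  have hnL : L ≤ n := (Nat.le_ceil _).trans (by exact_mod_cast hn1)
  have hnQ : Q ≤ n := (Nat.le_ceil _).trans (by exact_mod_cast hn2)
  have hnK : 2 * Ck * L / ε ≤ n := (Nat.le_ceil _).trans (by exact_mod_cast hn3)
  have hη : 0 < L / (n : ℝ) := by positivity
  have hη1 : L / (n : ℝ) ≤ 1 := by rw [div_le_one hn']; exact hnL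
  have hnη : (n : ℝ) * (L / n) = L := mul_div_cancel₀ _ hn'.ne'
  have hdev := hA n hn E hE (L / n) hη hη1 (by rw [hnη]; exact hL1)
  rw [hnη] at hdev
  have hclose : ∀ x y, ‖H520.Kz d (zz E (L / n)) (mm d (zz E (L / n))) K x y - KE d E K x y‖ ≤
      ε / 2 := by
    intro x y
    refine (hK E hE _ hη hη1 K x y).trans ?_
    rw [div_le_iff₀ hε] at hnK
    rw [← mul_div_assoc, div_le_iff₀ hn']
    linarith
  calc prob (WW n d K) (fun ω => ∃ x y,
        ε < ‖starMat ω ((E : ℂ) + ((L / n : ℝ) : ℂ) * Complex.I) x y - KE d E K x y‖)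
      ≤ prob (WW n d K) (fun ω => ∃ p : (Fin K × Option (Fin d)) × (Fin K × Option (Fin d)),
          ε₁ < ‖starMat ω (zz E (L / n)) p.1 p.2 -
            H520.Kz d (zz E (L / n)) (mm d (zz E (L / n))) K p.1 p.2‖) := by
        unfold prob
        apply avg_mono
        intro ω _
        split_ifs with h1 h2 h2
        · exact le_rfl
        · exfalso
          obtain ⟨x, y, hxy⟩ := h1
          apply h2
          refine ⟨(x, y), ?_⟩
          have h3 := hclose x y
          change ε < ‖starMat ω (zz E (L / n)) x y - KE d E K x y‖ at hxy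
          have h4 : ‖starMat ω (zz E (L / n)) x y - KE d E K x y‖ ≤
              ‖starMat ω (zz E (L / n)) x y -
                H520.Kz d (zz E (L / n)) (mm d (zz E (L / n))) K x y‖ +
              ‖H520.Kz d (zz E (L / n)) (mm d (zz E (L / n))) K x y - KE d E K x y‖ := by
            refine le_trans (le_of_eq ?_) (norm_add_le _ _)
            congr 1
            ring
          simp only
          linarith
        · norm_num
        · exact le_rfl
    _ ≤ N * ((A / L + A / n) / ε₁ ^ 2) :=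
        prob_exists_le _ _ fun p => entryK hn0 rfl hε1 hε2 hdev p.1 p.2
    _ ≤ (N + 1) * ((A / Q + A / Q) / ε₁ ^ 2) := by
        gcongr
        linarith
    _ = ε := by
        rw [hQ]
        field_simp
        ring

/-- **FE12, second part.** -/
theorem specEv_of {a b : ℝ} (hd : 3 ≤ d) (hM : SpecM d a b) (hC : SpecComp d a b)
    (hZ : SpecZW d) (hF : SpecFM d a b) (hI : SpecImUI d a b) : SpecEv d a b :=
  ⟨T1_of hI, T1'_of hI, T4_of hd hM hC hZ hF, T5_of hI⟩

end

end Vale.Agent.P156.F674
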