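import Vale.Agent.P156.FE.Spec
import Vale.Agent.P156.H801.UI
import Vale.Agent.P156.H520.Final

/-!
# P156, block FE12, part 1: uniform integrability of `Im G_vv(E + iη)` at every energy
-/

open MeasureTheory Filter Topology Matrix Finset

namespace Vale.Agent.P156.F674

open H801 FE

noncomputable section

variable {n d : ℕ}

theorem Xim_le_inv (G : SimpleGraph (Fin n)) (v : Fin n) {η : ℝ} (hη : 0 < η) (h1 : η ≤ 1)
    (E : ℝ) : Xim G v η E ≤ 1 / η := by
  have h := norm_resD_le (adj_isHermitian G) ∅ E hη v v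
  have h2 : max 1 (1 / η) = 1 / η := by
    apply max_eq_right
    rw [le_div_iff₀ hη]
    linarith
  rw [h2] at h
  exact (le_trans (le_abs_self _) (Complex.abs_im_le_norm _)).trans h

theorem Xim_mono (G : SimpleGraph (Fin n)) (v : Fin n) {η η' : ℝ} (hη : 0 < η) (h : η ≤ η')
    (E : ℝ) : η * Xim G v η E ≤ η' * Xim G v η' E := by
  have hη' : 0 < η' := hη.trans_le h
  rw [Xim_eq G v hη, Xim_eq G v hη', Finset.mul_sum, Finset.mul_sum]
  refine Finset.sum_le_sum fun i _ => ?_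
  have h2 : η * pk η (eig G i - E) ≤ η' * pk η' (eig G i - E) := by
    unfold pk
    rw [← mul_div_assoc, ← mul_div_assoc, div_le_div_iff₀ (by positivity) (by positivity)]
    have h3 : η ^ 2 ≤ η' ^ 2 := pow_le_pow_left₀ hη.le h 2
    nlinarith [sq_nonneg (eig G i - E)]
  have h4 : 0 ≤ ev (adj_isHermitian G) i v ^ 2 := sq_nonneg _
  nlinarith

/-- growth of `Im G_vv` when the scale decreases -/
theorem Xim_le_mul (G : SimpleGraph (Fin n)) (v : Fin n) {η H : ℝ} (hη : 0 < η) (hH : 1 ≤ H)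
    (E : ℝ) : Xim G v η E ≤ H * Xim G v (H * η) E := by
  have h := Xim_mono G v hη (by nlinarith : η ≤ H * η) E
  have h2 : η * Xim G v η E ≤ η * (H * Xim G v (H * η) E) := by
    refine h.trans (le_of_eq ?_)
    ring
  exact le_of_mul_le_mul_left h2 hη

/-- dyadic layer cake, pointwise -/
theorem layer {c X : ℝ} (hc : 0 < c) (j J : ℕ) (hX : X < c * 2 ^ J) :
    (if c * 2 ^ j ≤ X then X else 0) ≤
      ∑ k ∈ Finset.Ico j J, c * 2 ^ (k + 1) * (if c * 2 ^ k ≤ X then 1 else 0) := by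
  have h0 : ∀ k ∈ Finset.Ico j J, 0 ≤ c * 2 ^ (k + 1) * (if c * 2 ^ k ≤ X then (1 : ℝ) else 0) := by
    intro k _
    split_ifs <;> positivity
  split_ifs with h
  · have hj : (1 : ℝ) ≤ 2 ^ j := one_le_pow₀ (by norm_num)
    have hy : 1 ≤ X / c := by
      rw [le_div_iff₀ hc]
      nlinarith
    obtain ⟨k, hk1, hk2⟩ := exists_nat_pow_near hy (by norm_num : (1 : ℝ) < 2)
    rw [le_div_iff₀ hc] at hk1
    rw [div_lt_iff₀ hc] at hk2
    have hjk : j ≤ k := by
      by_contra hcon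
      have h3 : (2 : ℝ) ^ (k + 1) ≤ 2 ^ j := pow_le_pow_right₀ (by norm_num) (by omega)
      nlinarith
    have hkJ : k < J := by
      by_contra hcon
      have h3 : (2 : ℝ) ^ J ≤ 2 ^ k := pow_le_pow_right₀ (by norm_num) (by omega)
      nlinarith
    refine le_trans ?_ (Finset.single_le_sum h0 (Finset.mem_Ico.2 ⟨hjk, hkJ⟩))
    rw [if_pos (by linarith)]
    linarith
  · exact Finset.sum_nonneg h0

/-- the random variable -/
def XX (ω : SimpleGraph (Fin n) × StarPos n d 1) (η E : ℝ) : ℝ := Xim ω.1 (ω.2.1 0) η E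

theorem XX_nonneg (ω : SimpleGraph (Fin n) × StarPos n d 1) {η : ℝ} (hη : 0 < η) (E : ℝ) :
    0 ≤ XX ω η E := Xim_nonneg _ _ hη E

/-- tail bound from the two defect theorem -/
theorem prob_XX_le {C₁ A L₀ δ c E η : ℝ} (hc : C₁ ≤ c) (hc1 : 1 ≤ c)
    (h : ∀ η : ℝ, 0 < η → η ≤ 1 → L₀ ≤ n * η →
      prob (WW n d 1) (fun ω => C₁ ≤ ‖resD (adj ω.1) ∅ (zz E η) (ω.2.1 0) (ω.2.1 0)‖) ≤
        A * (n * η) ^ (-(1 + δ)))
    (hη : 0 < η) (h1 : η ≤ 1) (hL : L₀ ≤ n * η) (hN : 0 < n * η) (k : ℕ) :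
    prob (WW n d 1) (fun ω => c * 2 ^ k ≤ XX ω η E) ≤ |A| * (2 ^ k * (n * η)) ^ (-(1 + δ)) := by
  have h2k : (1 : ℝ) ≤ 2 ^ k := one_le_pow₀ (by norm_num)
  by_cases hk : 2 ^ k * η ≤ 1
  · have h3 := h (2 ^ k * η) (by positivity) hk (hL.trans (by nlinarith))
    have h4 : prob (WW n d 1) (fun ω => c * 2 ^ k ≤ XX ω η E) ≤
        prob (WW n d 1) (fun ω => C₁ ≤
          ‖resD (adj ω.1) ∅ (zz E (2 ^ k * η)) (ω.2.1 0) (ω.2.1 0)‖) := by
      unfold prob
      apply avg_mono
      intro ω _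
      by_cases hω : c * 2 ^ k ≤ XX ω η E
      · have h5 : C₁ ≤ ‖resD (adj ω.1) ∅ (zz E (2 ^ k * η)) (ω.2.1 0) (ω.2.1 0)‖ := by
          have h6 := Xim_le_mul ω.1 (ω.2.1 0) hη h2k E
          have h7 : c * 2 ^ k ≤ 2 ^ k * Xim ω.1 (ω.2.1 0) (2 ^ k * η) E := hω.trans h6
          have h8 : c ≤ Xim ω.1 (ω.2.1 0) (2 ^ k * η) E := by
            rw [mul_comm] at h7
            exact le_of_mul_le_mul_left h7 (by positivity)
          exact hc.trans (h8.trans ((le_abs_self _).trans (Complex.abs_im_le_norm _)))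
        rw [if_pos hω, if_pos h5]
      · rw [if_neg hω]
        split_ifs <;> norm_num
    refine h4.trans (h3.trans ?_)
    have h9 : (n : ℝ) * (2 ^ k * η) = 2 ^ k * (n * η) := by ring
    rw [h9]
    exact mul_le_mul_of_nonneg_right (le_abs_self A) (Real.rpow_nonneg (by positivity) _)
  · have h4 : prob (WW n d 1) (fun ω => c * 2 ^ k ≤ XX ω η E) ≤ 0 := by
      unfold prob
      apply avg_le_of_le le_rfl
      intro ω _
      have h5 : ¬ c * 2 ^ k ≤ XX ω η E := by
        intro h6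
        have h7 : XX ω η E ≤ 1 / η := Xim_le_inv ω.1 (ω.2.1 0) hη h1 E
        have h8 : 1 / η < 2 ^ k := by
          rw [div_lt_iff₀ hη]
          linarith
        nlinarith
      rw [if_neg h5]
    refine h4.trans (mul_nonneg (abs_nonneg _) (Real.rpow_nonneg (by positivity) _))

/-- uniform tail of the first moment -/
theorem tail_le {C₁ A L₀ δ c E η : ℝ} (hc : C₁ ≤ c) (hc1 : 1 ≤ c) (hδ : 0 < δ)
    (h : ∀ η : ℝ, 0 < η → η ≤ 1 → L₀ ≤ n * η →
      prob (WW n d 1) (fun ω => C₁ ≤ ‖resD (adj ω.1) ∅ (zz E η) (ω.2.1 0) (ω.2.1 0)‖) ≤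
        A * (n * η) ^ (-(1 + δ)))
    (hη : 0 < η) (h1 : η ≤ 1) (hL : L₀ ≤ n * η) (hN : 1 ≤ n * η) (j : ℕ) :
    avg (WW n d 1) (fun ω => if c * 2 ^ j ≤ XX ω η E then XX ω η E else 0) ≤
      2 * c * |A| * (((2 : ℝ) ^ (-δ)) ^ j / (1 - (2 : ℝ) ^ (-δ))) := by
  have hc0 : 0 < c := by linarith
  obtain ⟨J, hJ⟩ := pow_unbounded_of_one_lt (1 / η) (by norm_num : (1 : ℝ) < 2)
  set r : ℝ := (2 : ℝ) ^ (-δ) with hr
  have hr0 : 0 ≤ r := Real.rpow_nonneg (by norm_num) _
  have hr1 : r < 1 := Real.rpow_lt_one_of_one_lt_of_neg (by norm_num) (by linarith)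
  calc avg (WW n d 1) (fun ω => if c * 2 ^ j ≤ XX ω η E then XX ω η E else 0)
      ≤ avg (WW n d 1) (fun ω => ∑ k ∈ Finset.Ico j J,
          c * 2 ^ (k + 1) * (if c * 2 ^ k ≤ XX ω η E then 1 else 0)) := by
        apply avg_mono
        intro ω _
        refine layer hc0 j J ?_
        have h7 : XX ω η E ≤ 1 / η := Xim_le_inv ω.1 (ω.2.1 0) hη h1 E
        have h8 : (0 : ℝ) < 2 ^ J := by positivity
        nlinarith
    _ = ∑ k ∈ Finset.Ico j J, c * 2 ^ (k + 1) *
          prob (WW n d 1) (fun ω => c * 2 ^ k ≤ XX ω η E) := by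
        rw [H520.avg_sum]
        refine Finset.sum_congr rfl fun k _ => ?_
        rw [H520.avg_const_mul]
        unfold prob
        congr 2
    _ ≤ ∑ k ∈ Finset.Ico j J, 2 * c * |A| * r ^ k := by
        refine Finset.sum_le_sum fun k _ => ?_
        have h2 := prob_XX_le (n := n) (d := d) hc hc1 h hη h1 hL (by linarith) k
        have h3 : (2 ^ k * (n * η) : ℝ) ^ (-(1 + δ)) ≤ ((2 : ℝ) ^ k) ^ (-(1 + δ)) := by
          apply Real.rpow_le_rpow_of_nonpos (by positivity) _ (by linarith)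
          have : (0 : ℝ) < 2 ^ k := by positivity
          nlinarith
        have h4 : (2 : ℝ) ^ (k + 1) * ((2 : ℝ) ^ k) ^ (-(1 + δ)) = 2 * r ^ k := by
          rw [hr, ← Real.rpow_natCast 2 k, ← Real.rpow_mul (by norm_num), pow_succ,
            ← Real.rpow_natCast 2 k, ← Real.rpow_natCast ((2 : ℝ) ^ (-δ)) k,
            ← Real.rpow_mul (by norm_num)]
          have e1 : (k : ℝ) * -(1 + δ) = -(k : ℝ) + -δ * k := by ring
          rw [e1, Real.rpow_add (by norm_num), Real.rpow_neg (by norm_num)]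
          have h5 : (2 : ℝ) ^ (k : ℝ) ≠ 0 := (Real.rpow_pos_of_pos (by norm_num) _).ne'
          field_simp
        calc c * 2 ^ (k + 1) * prob (WW n d 1) (fun ω => c * 2 ^ k ≤ XX ω η E)
            ≤ c * 2 ^ (k + 1) * (|A| * (2 ^ k * (n * η)) ^ (-(1 + δ))) := by gcongr
          _ ≤ c * 2 ^ (k + 1) * (|A| * ((2 : ℝ) ^ k) ^ (-(1 + δ))) := by gcongr
          _ = c * |A| * ((2 : ℝ) ^ (k + 1) * ((2 : ℝ) ^ k) ^ (-(1 + δ))) := by ring
          _ = 2 * c * |A| * r ^ k := by rw [h4]; ring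
    _ = 2 * c * |A| * ∑ k ∈ Finset.Ico j J, r ^ k := by rw [Finset.mul_sum]
    _ ≤ 2 * c * |A| * (r ^ j / (1 - r)) := by
        gcongr
        exact geom_sum_Ico_le_of_lt_one hr0 hr1

/-- **FE12, first part.** -/
theorem specImUI_of {a b : ℝ} (hTD : SpecTD d a b) : SpecImUI d a b := by
  obtain ⟨C₁, A, L₀, δ, hδ, hL₀, h⟩ := hTD
  set c : ℝ := max C₁ 1 with hcdef
  have hc : C₁ ≤ c := le_max_left _ _
  have hc1 : 1 ≤ c := le_max_right _ _
  set r : ℝ := (2 : ℝ) ^ (-δ) with hr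
  have hr0 : 0 ≤ r := Real.rpow_nonneg (by norm_num) _
  have hr1 : r < 1 := Real.rpow_lt_one_of_one_lt_of_neg (by norm_num) (by linarith)
  have hr2 : 0 < 1 - r := by linarith
  refine ⟨⟨L₀ * (c + 2 * c * |A| * (1 / (1 - r))), ?_⟩, ?_⟩
  · intro n hn E hE η hη h1 hN
    have hnpos : (0 : ℝ) < n := by
      have h1' : 0 < n := by have := hn.1; omega
      exact_mod_cast h1'
    have hQ : 0 ≤ 2 * c * |A| * (1 / (1 - r)) := by positivity
    by_cases hs : L₀ * η ≤ 1
    · have hη' : 0 < L₀ * η := by positivity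
      have hNL : L₀ ≤ n * (L₀ * η) := by nlinarith
      have ht := tail_le (n := n) (d := d) hc hc1 hδ (fun η a1 a2 a3 => h n hn E hE η a1 a2 a3)
        hη' hs hNL (by linarith) 0
      rw [pow_zero, pow_zero, mul_one] at ht
      calc avg (WW n d 1) (fun ω => (resD (adj ω.1) ∅ (zz E η) (ω.2.1 0) (ω.2.1 0)).im)
          ≤ avg (WW n d 1) (fun ω => L₀ * (c + if c ≤ XX ω (L₀ * η) E then XX ω (L₀ * η) E
              else 0)) := by
            apply avg_mono
            intro ω _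
            refine (Xim_le_mul ω.1 (ω.2.1 0) hη hL₀ E).trans ?_
            refine mul_le_mul_of_nonneg_left ?_ (by linarith)
            show XX ω (L₀ * η) E ≤ _
            split_ifs with h3
            · linarith
            · linarith
        _ = L₀ * (avg (WW n d 1) (fun _ => c) + avg (WW n d 1) (fun ω =>
              if c ≤ XX ω (L₀ * η) E then XX ω (L₀ * η) E else 0)) := by
            rw [H520.avg_const_mul, H520.avg_add]
        _ ≤ L₀ * (c + 2 * c * |A| * (1 / (1 - r))) := by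
            refine mul_le_mul_of_nonneg_left (add_le_add ?_ ht) (by linarith)
            exact avg_le_of_le (by linarith) fun _ _ => le_rfl
    · apply avg_le_of_le (by positivity)
      intro ω _
      refine (Xim_le_inv ω.1 (ω.2.1 0) hη h1 E).trans ?_
      rw [div_le_iff₀ hη]
      have h3 : 1 ≤ L₀ * η := by linarith
      nlinarith
  · intro L hL ε hε
    have hl : Tendsto (fun j : ℕ => L₀ * (2 * c * |A| * (r ^ j / (1 - r)))) atTop (𝓝 0) := by
      have h1 := tendsto_pow_atTop_nhds_zero_of_lt_one hr0 hr1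
      have h2 := ((h1.div_const (1 - r)).const_mul (2 * c * |A|)).const_mul L₀
      simpa using h2
    obtain ⟨j, hj⟩ := (hl.eventually_le_const hε).exists
    refine ⟨L₀ * (c * 2 ^ j), ?_⟩
    filter_upwards [H520.adm_mem (d := d), H520.adm_ge (d := d) ⌈L₀ * L⌉₊] with n hn hnL E hE
    have hnpos : (0 : ℝ) < n := by
      have h1' : 0 < n := by have := hn.1; omega
      exact_mod_cast h1'
    have hnL' : L₀ * L ≤ n := (Nat.le_ceil _).trans (by exact_mod_cast hnL)
    have hη : 0 < L / n := by positivity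
    have hs : L₀ * (L / n) ≤ 1 := by
      rw [← mul_div_assoc, div_le_iff₀ hnpos]
      linarith
    have hη' : 0 < L₀ * (L / n) := by positivity
    have hNL : L₀ ≤ n * (L₀ * (L / n)) := by
      have : (n : ℝ) * (L₀ * (L / n)) = L₀ * L := by field_simp
      rw [this]
      nlinarith
    have ht := tail_le (n := n) (d := d) hc hc1 hδ (fun η a1 a2 a3 => h n hn E hE η a1 a2 a3)
      hη' hs hNL (by linarith) j
    calc avg (WW n d 1) (fun ω =>
          if L₀ * (c * 2 ^ j) ≤ (resD (adj ω.1) ∅ (zz E (L / n)) (ω.2.1 0) (ω.2.1 0)).im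
          then (resD (adj ω.1) ∅ (zz E (L / n)) (ω.2.1 0) (ω.2.1 0)).im else 0)
        ≤ avg (WW n d 1) (fun ω => L₀ * if c * 2 ^ j ≤ XX ω (L₀ * (L / n)) E then
            XX ω (L₀ * (L / n)) E else 0) := by
          apply avg_mono
          intro ω _
          have h3 := Xim_le_mul ω.1 (ω.2.1 0) hη hL₀ E
          have h4 := XX_nonneg ω hη' E
          change (if L₀ * (c * 2 ^ j) ≤ Xim ω.1 (ω.2.1 0) (L / n) E then
            Xim ω.1 (ω.2.1 0) (L / n) E else 0) ≤ _
          by_cases h5 : L₀ * (c * 2 ^ j) ≤ Xim ω.1 (ω.2.1 0) (L / n) E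
          · have h6 : c * 2 ^ j ≤ XX ω (L₀ * (L / n)) E := by
              have h7 := h5.trans h3
              exact le_of_mul_le_mul_left h7 (by linarith)
            rw [if_pos h5, if_pos h6]
            exact h3
          · rw [if_neg h5]
            refine mul_nonneg (by linarith) ?_
            split_ifs
            · exact h4
            · exact le_rfl
      _ = L₀ * avg (WW n d 1) (fun ω => if c * 2 ^ j ≤ XX ω (L₀ * (L / n)) E then
            XX ω (L₀ * (L / n)) E else 0) := H520.avg_const_mul _ _ _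
      _ ≤ L₀ * (2 * c * |A| * (r ^ j / (1 - r))) :=
          mul_le_mul_of_nonneg_left ht (by linarith)
      _ ≤ ε := hj

end

end Vale.Agent.P156.F674
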